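import Vale.Agent.P146.Defs
import Vale.Agent.P146.Bdl.B40
import Vale.Agent.P146.Bdl.B42

/-!
# P146: polynomial bounds, on both sides, for the free-energy fluctuations of the
Sherrington-Kirkpatrick model at every `β > 1`

There is a universal `c > 0` such that for every `β > 1` and all large `n`:
`sup_a P(|F_n(β) - a| ≤ n^c) ≤ n^(-c)` and `Var F_n(β) ≥ n^c`; and
`Var F_n(β) ≤ C n^(71/72) (1 + log n)` for all `n ≥ 1`.
-/

open MeasureTheory ProbabilityTheory Filter Topology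

namespace Vale.Agent.Results.P146.Power

open Vale.Agent.P146

theorem result : ∃ c : ℝ, 0 < c ∧ ∀ β : ℝ, 1 < β →
    (∀ᶠ n : ℕ in atTop,
      (⨆ a : ℝ, (disorder n).real {g | |freeEnergy n β g - a| ≤ (n : ℝ) ^ c}) ≤ (n : ℝ) ^ (-c) ∧
      (n : ℝ) ^ c ≤ Var[freeEnergy n β; disorder n]) ∧
    ∃ C : ℝ, ∀ n : ℕ, 1 ≤ n →
      Var[freeEnergy n β; disorder n] ≤ C * (n : ℝ) ^ (71 / 72 : ℝ) * (1 + Real.log n) := by
  obtain ⟨c, hc, h⟩ := Pw2.power
  exact ⟨c, hc, fun β hβ => ⟨h β hβ, Ub.var_upper (by linarith)⟩⟩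

end Vale.Agent.Results.P146.Power
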